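import Vale.Agent.P027.R4.H849.BB

set_option linter.all false

/-! The trivial bound: the order of `P0` modulo a prime `q` is at most `2 (q + 1)`. -/

namespace Vale.Agent.P027.D1.H712

open Vale.Agent.P345 Vale.Agent.P027 Vale.Agent.P027.HT Vale.Agent.P027.D1
open Vale.Agent.P027.R4.H297 Vale.Agent.P027.R4.H849

theorem norm_two_of_odd {q : ℕ} [hq : Fact q.Prime] (h2 : q ≠ 2) : ‖(2 : ℚ_[q])‖ = 1 := by
  have h : ¬ (q : ℤ) ∣ 2 := by
    intro h
    have h1 : q ∣ 2 := by exact_mod_cast h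
    exact h2 ((Nat.prime_dvd_prime_iff_eq hq.out Nat.prime_two).1 h1)
  have h3 : ‖((2 : ℤ) : ℚ_[q])‖ ≤ 1 := Padic.norm_int_le_one 2
  have h4 : ¬ ‖((2 : ℤ) : ℚ_[q])‖ < 1 := by
    rw [Padic.norm_intCast_lt_one_iff]
    exact h
  have h5 : ((2 : ℤ) : ℚ_[q]) = 2 := by norm_num
  rw [h5] at h3 h4
  exact le_antisymm h3 (not_lt.1 h4)

theorem triv_odd {q m : ℕ} (hq : q.Prime) (h2 : q ≠ 2) (ho : Ord q m) : m ≤ 2 * (q + 1) := by
  classical
  haveI : Fact q.Prime := ⟨hq⟩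
  by_contra hcon
  push Not at hcon
  obtain ⟨i, j, hij, h⟩ := pigeon (q := q) (norm_two_of_odd h2)
    (fun i : Fin m => ((i : ℕ) : ℤ) • jj q P0) (by rw [Fintype.card_fin]; exact hcon)
  have e : ((i : ℕ) : ℤ) • jj q P0 - ((j : ℕ) : ℤ) • jj q P0 =
      (((i : ℕ) : ℤ) - ((j : ℕ) : ℤ)) • jj q P0 := (sub_smul _ _ _).symm
  rw [e, mem_EB_zsmul ho] at h
  apply hij
  have hi := i.2
  have hj := j.2
  obtain ⟨c, hc⟩ := h
  have hm : (0 : ℤ) < m := by exact_mod_cast ho.1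
  have h3 : c = 0 := by
    by_contra hc0
    rcases lt_or_gt_of_ne hc0 with h4 | h4
    · have : (m : ℤ) * c ≤ m * (-1) := by
        apply mul_le_mul_of_nonneg_left _ hm.le
        omega
      omega
    · have : (m : ℤ) * 1 ≤ m * c := by
        apply mul_le_mul_of_nonneg_left _ hm.le
        omega
      omega
  rw [h3, mul_zero] at hc
  ext
  omega

theorem triv_two {m : ℕ} (ho : Ord 2 m) : m ≤ 2 := by
  have h : Dv 2 2 := by
    right
    have h3 : ((9 : ℚ) / 4).den = 4 := by norm_num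
    rw [xc_of_hasX hasX_two_P0, h3]
    norm_num
  have h1 := (ho.2 2).1 h
  have h2 : m ∣ 2 := by exact_mod_cast h1
  exact Nat.le_of_dvd (by norm_num) h2

/-- the trivial bound -/
theorem triv : ∀ q m : ℕ, q.Prime → Ord q m → m ≤ 2 * (q + 1) := by
  intro q m hq ho
  by_cases h2 : q = 2
  · subst h2
    have := triv_two ho
    omega
  · exact triv_odd hq h2 ho

end Vale.Agent.P027.D1.H712
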